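import Vale.Agent.P151.QP.Stmts

/-!
# The three-cluster inequality and its consumer: literal statements
-/

set_option autoImplicit false

open Finset SimpleGraph

namespace Vale.Agent.P151.TC

open Vale.Agent.P151 Vale.Agent.P151.QP

/-- **(TC)** The three-cluster inequality: if two distinct clusters of mass at least `n` are seen
from `x` and `y`, then `z` has a cluster of mass at least `n` with at least a constant fraction of
its probability. -/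
def TCStmt : Prop := ∀ (V : Type) [DecidableEq V] (p : ℝ), 0 ≤ p → p ≤ 1 →
  ∀ (Λ : Finset (Sym2 V)) (n : ℕ) (x y z : V),
  PD p Λ n x y * Ex p Λ (fun S => I1 (n ≤ csz S z)) ≤
    11 * Ex p Λ (fun S => DD n x y S * I1 (n ≤ csz S z))

/-- **(QT)** The quasi-triangle inequality with some constant. -/
def QTStmt (V : Type) [DecidableEq V] : Prop := ∃ C0 : ℝ, 1 ≤ C0 ∧ ∀ (p : ℝ), 0 ≤ p → p ≤ 1 →
  ∀ (Λ : Finset (Sym2 V)) (n : ℕ) (x y z : V),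
  Ex p Λ (fun S => I1 (n ≤ csz S z)) * PD p Λ n x y ≤ C0 * (PD p Λ n x z + PD p Λ n z y)

/-- (D2) the drop of the tail between `n` and `n ^ 2`, without losses in the mass. -/
def Drop2Stmt {V : Type} [DecidableEq V] (G : SimpleGraph V) [G.LocallyFinite] : Prop :=
  ∀ (p0 c0 : ℝ), 0 < p0 → 0 < c0 → ∃ C : ℝ, 1 ≤ C ∧ ∀ (p : ℝ) (n J r : ℕ), p0 ≤ p → p ≤ 1 →
    (∀ x, c0 ≤ phiB G n x p) → 2 ≤ n →
    (∀ x, 8 * n ^ 3 ≤ (ballF G x r).card) → C * r ^ 2 * (1 + Real.log n) ≤ 2 ^ J →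
    ∀ x, phiB G n x p - phiB G (n ^ 2) x p ≤ C * C ^ J / Real.sqrt (Real.sqrt n)

/-- (K1') the choice of the parameters. -/
def Param2Stmt {V : Type} [DecidableEq V] (G : SimpleGraph V) [G.LocallyFinite] : Prop :=
  ∀ C : ℝ, 1 ≤ C → ∃ k0 : ℕ, ∀ k : ℕ, k0 ≤ k → ∃ J r : ℕ,
    (∀ x, 8 * (2 ^ (2 ^ k)) ^ 3 ≤ (ballF G x r).card) ∧
    C * r ^ 2 * (1 + Real.log ((2 ^ (2 ^ k) : ℕ) : ℝ)) ≤ 2 ^ J ∧
    C * C ^ J / Real.sqrt (Real.sqrt ((2 ^ (2 ^ k) : ℕ) : ℝ)) ≤ (1 / 2) ^ k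

end Vale.Agent.P151.TC
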