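import Vale.Agent.P151.TC.H510.Def

/-!
# (K1') The choice of the parameters, for every superpolynomial growth

The parameters `J`, `r = 2 ^ i` at the scale `n = 2 ^ 2 ^ k` are
`i = (3 * 2 ^ k + 3) / D + 2`, `J = c0 + 2 i + k + 1`, where `C ≤ 2 ^ c0` and `D = 64 (c0 + 1)`.
-/

set_option autoImplicit false

open Finset SimpleGraph

namespace Vale.Agent.P151.TC

open Vale.Agent.P151 Vale.Agent.P151.QP

variable {V : Type} [DecidableEq V] {G : SimpleGraph V} [G.LocallyFinite]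

/-- **(K1')** -/
theorem param2 (hG : G.Connected) {R : Finset V} (hR : ∀ x : V, ∃ g : G ≃g G, g x ∈ R)
    (hgr : ∀ (o : V) (D : ℕ), ∃ N : ℕ, ∀ n : ℕ, N ≤ n → n ^ D < (ballF G o n).card) :
    Param2Stmt G := by
  intro C hC
  obtain ⟨o⟩ := hG.nonempty
  obtain ⟨c0, hc0⟩ : ∃ c0 : ℕ, C ≤ 2 ^ c0 := by
    obtain ⟨c0, hc0⟩ := pow_unbounded_of_one_lt C (show (1 : ℝ) < 2 by norm_num)
    exact ⟨c0, hc0.le⟩
  obtain ⟨B, hB⟩ : ∃ B : ℕ, B = 64 * (c0 + 1) := ⟨_, rfl⟩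
  have hBpos : 0 < B := by omega
  obtain ⟨D, hD⟩ := R2.H279.cobounded hG hR
  obtain ⟨N, hN⟩ := hgr o B
  obtain ⟨K1, hK1⟩ := R2.H279.sq_le_two_pow (B * (N + D + 1) + 8 * (c0 + 7) ^ 2)
  refine ⟨max K1 8, fun k hk => ?_⟩
  have hkK1 : K1 ≤ k := le_trans (le_max_left _ _) hk
  have hk3 : 8 ≤ k := le_trans (le_max_right _ _) hk
  have hk1 := hK1 k hkK1
  have hk2 : B * (N + D + 1) ≤ 2 ^ k := by
    refine le_trans ?_ hk1
    calc B * (N + D + 1) ≤ B * (N + D + 1) + 8 * (c0 + 7) ^ 2 := Nat.le_add_right _ _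
      _ = (B * (N + D + 1) + 8 * (c0 + 7) ^ 2) * 1 := (mul_one _).symm
      _ ≤ (B * (N + D + 1) + 8 * (c0 + 7) ^ 2) * (k + 1) ^ 2 :=
        Nat.mul_le_mul_left _ (Nat.one_le_pow _ _ (by omega))
  have hk4 : 8 * ((c0 + 7) ^ 2 * (k + 1) ^ 2) ≤ 2 ^ k := by
    refine le_trans ?_ hk1
    rw [← mul_assoc]
    exact Nat.mul_le_mul_right _ (Nat.le_add_left _ _)
  obtain ⟨a, ha⟩ : ∃ a : ℕ, a = (3 * 2 ^ k + 3) / B := ⟨_, rfl⟩
  obtain ⟨i, hi⟩ : ∃ i : ℕ, i = a + 2 := ⟨_, rfl⟩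
  have ha1 : 3 * 2 ^ k + 3 < (a + 1) * B := by
    rw [ha]
    exact (Nat.div_lt_iff_lt_mul hBpos).1 (Nat.lt_succ_self _)
  have ha2 : B * a ≤ 3 * 2 ^ k + 3 := by
    rw [ha]; exact Nat.mul_div_le _ _
  have hND : N + D + 1 ≤ a := by
    rw [ha, Nat.le_div_iff_mul_le hBpos, mul_comm]
    omega
  obtain ⟨J, hJ⟩ : ∃ J : ℕ, J = c0 + 2 * i + k + 1 := ⟨_, rfl⟩
  refine ⟨J, 2 ^ i, ?_, ?_, ?_⟩
  · -- the volume
    intro x
    obtain ⟨φ, hφ⟩ := hD o x
    have h1 : (ballF G o (2 ^ (i - 1))).card ≤ (ballF G x (2 ^ i)).card := by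
      rw [← card_ballF_aut hG φ]
      apply Finset.card_le_card
      intro z hz
      rw [mem_ballF_iff hG] at hz ⊢
      have h2 := hG.dist_triangle (u := z) (v := φ o) (w := x)
      have h3 : D ≤ 2 ^ (i - 1) := by
        have := Nat.lt_two_pow_self (n := i - 1)
        omega
      have h4 : 2 ^ i = 2 ^ (i - 1) + 2 ^ (i - 1) := by
        have : i = (i - 1) + 1 := by omega
        conv_lhs => rw [this, pow_succ]
        omega
      omega
    refine le_trans ?_ h1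
    have hNi : N ≤ 2 ^ (i - 1) := by
      have := Nat.lt_two_pow_self (n := i - 1)
      omega
    have h5 := hN (2 ^ (i - 1)) hNi
    refine le_trans ?_ h5.le
    have e1 : 8 * (2 ^ (2 ^ k)) ^ 3 = 2 ^ (3 * 2 ^ k + 3) := by
      rw [← pow_mul, pow_add]; ring
    rw [e1, ← pow_mul]
    apply Nat.pow_le_pow_right (by norm_num)
    have e2 : i - 1 = a + 1 := by omega
    rw [e2]
    exact ha1.le
  · -- the time
    have h1 : Real.log ((2 ^ (2 ^ k) : ℕ) : ℝ) ≤ 2 ^ k := by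
      push_cast
      rw [Real.log_pow]
      push_cast
      have : Real.log 2 ≤ 1 := by
        have := Real.log_two_lt_d9
        linarith
      have h2 : (0 : ℝ) ≤ 2 ^ k := by positivity
      nlinarith
    have h2 : 1 + Real.log ((2 ^ (2 ^ k) : ℕ) : ℝ) ≤ 2 ^ (k + 1) := by
      have : (1 : ℝ) ≤ 2 ^ k := one_le_pow₀ (by norm_num)
      rw [pow_succ]
      linarith
    have h3 : 0 ≤ 1 + Real.log ((2 ^ (2 ^ k) : ℕ) : ℝ) := by
      have : 0 ≤ Real.log ((2 ^ (2 ^ k) : ℕ) : ℝ) := by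
        apply Real.log_nonneg
        exact_mod_cast Nat.one_le_two_pow
      linarith
    calc C * ((2 ^ i : ℕ) : ℝ) ^ 2 * (1 + Real.log ((2 ^ (2 ^ k) : ℕ) : ℝ))
        ≤ 2 ^ c0 * ((2 ^ i : ℕ) : ℝ) ^ 2 * 2 ^ (k + 1) := by
          apply mul_le_mul _ h2 h3 (by positivity)
          exact mul_le_mul_of_nonneg_right hc0 (by positivity)
      _ = 2 ^ J := by
          push_cast
          rw [hJ, ← pow_mul, ← pow_add, ← pow_add]
          congr 1
          ring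
  · -- the error
    have hC0 : 0 ≤ C := by linarith
    have hsq : Real.sqrt (Real.sqrt ((2 ^ (2 ^ k) : ℕ) : ℝ)) = 2 ^ (2 ^ (k - 2)) := by
      have e1 : 2 ^ k = 2 ^ (k - 2) * 2 * 2 := by
        have : k = (k - 2) + 1 + 1 := by omega
        conv_lhs => rw [this, pow_succ, pow_succ]
      push_cast
      rw [e1, pow_mul, Real.sqrt_sq (by positivity), pow_mul, Real.sqrt_sq (by positivity)]
    rw [hsq, one_div_pow, div_le_div_iff₀ (by positivity) (by positivity), one_mul]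
    have hexp : c0 + c0 * J + k ≤ 2 ^ (k - 2) := by
      have e1 : 2 ^ k = 4 * 2 ^ (k - 2) := by
        have : k = (k - 2) + 2 := by omega
        conv_lhs => rw [this, pow_add]
        ring
      have e2 : c0 + c0 * J + k = c0 * (c0 + k + 6) + k + 2 * (c0 * a) := by
        rw [hJ, hi]; ring
      have e3 : c0 * (c0 + k + 6) + k ≤ (c0 + 7) ^ 2 * (k + 1) ^ 2 := by
        have f1 : c0 * (c0 + k + 6) + k ≤ (c0 + 7) ^ 2 * (k + 1) := by
          nlinarith [Nat.zero_le (c0 * k), Nat.zero_le (c0 ^ 2 * k)]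
        refine f1.trans (Nat.mul_le_mul_left _ ?_)
        nlinarith
      have e4 : 64 * (c0 * a) ≤ 3 * 2 ^ k + 3 := by
        refine le_trans ?_ ha2
        rw [hB]
        nlinarith
      have e5 : 256 ≤ 2 ^ k := by
        calc 256 = 2 ^ 8 := by norm_num
          _ ≤ 2 ^ k := Nat.pow_le_pow_right (by norm_num) hk3
      omega
    calc C * C ^ J * 2 ^ k ≤ 2 ^ c0 * (2 ^ c0) ^ J * 2 ^ k := by
          apply mul_le_mul_of_nonneg_right _ (by positivity)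
          exact mul_le_mul hc0 (pow_le_pow_left₀ hC0 hc0 J) (by positivity) (by positivity)
      _ = 2 ^ (c0 + c0 * J + k) := by rw [← pow_mul, ← pow_add, ← pow_add]
      _ ≤ 2 ^ (2 ^ (k - 2)) := pow_le_pow_right₀ (by norm_num) hexp

end Vale.Agent.P151.TC
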