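import Vale.Agent.P151.TC.H510.Qt
import Vale.Agent.P151.QP.DropCore
import Vale.Agent.P151.QP.DropFol

/-!
# The drop of the tail without loss of mass
-/

set_option autoImplicit false
set_option linter.unusedSectionVars false

open Finset SimpleGraph

namespace Vale.Agent.P151.TC

open Vale.Agent.P151 Vale.Agent.P151.QP Vale.Agent.P151.R2.H279

variable {V : Type} [DecidableEq V] {G : SimpleGraph V} [G.LocallyFinite]

/-- The heat kernel after `2 ^ J` steps. -/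
lemma qq_le_cube {d : ℕ} {C2 : ℝ} (hC2 : 0 < C2)
    (H2 : ∀ (U : Finset V) (κ : ℝ) (r j : ℕ), 0 < κ → κ ≤ 1 →
      (∀ x, 8 / κ ≤ ((ballF G x r).card : ℝ)) → C2 * r ^ 2 * (1 + Real.log (1 / κ)) ≤ 2 ^ j →
      ∀ x y, qq U (kM G d U) j x y ≤ κ) {C : ℝ} (hCC2 : 3 * C2 ≤ C) {n J r : ℕ} (hn : 2 ≤ n)
    (hvol : ∀ x, 8 * n ^ 3 ≤ (ballF G x r).card) (hJ : C * r ^ 2 * (1 + Real.log n) ≤ 2 ^ J)
    (U : Finset V) (x y : V) : qq U (kM G d U) J x y ≤ 1 / (n : ℝ) ^ 3 := by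
  have hnR : (2 : ℝ) ≤ n := by exact_mod_cast hn
  have hn0 : (0 : ℝ) < n := by linarith
  refine H2 U (1 / (n : ℝ) ^ 3) r J (by positivity) ?_ ?_ ?_ x y
  · rw [div_le_one (by positivity)]
    exact one_le_pow₀ (by linarith)
  · intro x
    have h1 := hvol x
    have h2 : (8 : ℝ) / (1 / (n : ℝ) ^ 3) = ((8 * n ^ 3 : ℕ) : ℝ) := by
      push_cast
      field_simp
    rw [h2]
    exact_mod_cast h1
  · refine le_trans ?_ hJ
    have h1 : Real.log (1 / (1 / (n : ℝ) ^ 3)) = 3 * Real.log n := by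
      rw [one_div_one_div, Real.log_pow]
      norm_num
    rw [h1]
    have h2 : 0 ≤ Real.log n := Real.log_nonneg (by linarith)
    have h3 : C2 * (r : ℝ) ^ 2 * (1 + 3 * Real.log n) ≤
        C2 * (r : ℝ) ^ 2 * (3 * (1 + Real.log n)) := by
      apply mul_le_mul_of_nonneg_left _ (by positivity)
      linarith
    refine h3.trans ?_
    have h4 : 0 ≤ (r : ℝ) ^ 2 * (1 + Real.log n) := by positivity
    calc C2 * (r : ℝ) ^ 2 * (3 * (1 + Real.log n)) = 3 * C2 * ((r : ℝ) ^ 2 * (1 + Real.log n)) := by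
          ring
      _ ≤ C * ((r : ℝ) ^ 2 * (1 + Real.log n)) := mul_le_mul_of_nonneg_right hCC2 h4
      _ = _ := by ring

/-- Numbers around `m = ⌊√n⌋`. -/
lemma sqrt_facts {n m : ℕ} (hn4 : 4 ≤ n) (hmdef : m = Nat.sqrt n) :
    2 ≤ m ∧ m ≤ n ∧ 0 < Real.sqrt (Real.sqrt n) ∧
      1 / Real.sqrt m ≤ 2 / Real.sqrt (Real.sqrt n) ∧
      1 / (n : ℝ) ≤ 1 / Real.sqrt (Real.sqrt n) ∧ (m : ℝ) / n ≤ 1 / Real.sqrt (Real.sqrt n) := by
  have hmm : m * m ≤ n := by rw [hmdef]; exact Nat.sqrt_le _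
  have hmm' : n < (m + 1) * (m + 1) := by rw [hmdef]; exact Nat.lt_succ_sqrt _
  have hm2 : 2 ≤ m := by rw [hmdef, Nat.le_sqrt]; omega
  have hmn : m ≤ n := le_trans (by nlinarith) hmm
  have hnR : (4 : ℝ) ≤ n := by exact_mod_cast hn4
  have hn0 : (0 : ℝ) < n := by linarith
  have hs0 : 0 < Real.sqrt n := Real.sqrt_pos.2 hn0
  have hss : Real.sqrt n * Real.sqrt n = n := Real.mul_self_sqrt hn0.le
  have hs1 : 1 ≤ Real.sqrt n := by
    rw [Real.one_le_sqrt]; linarith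
  have ht0 : 0 < Real.sqrt (Real.sqrt n) := Real.sqrt_pos.2 hs0
  have ht1 : Real.sqrt (Real.sqrt n) ≤ Real.sqrt n := by
    have h1 : Real.sqrt (Real.sqrt n) * Real.sqrt (Real.sqrt n) = Real.sqrt n :=
      Real.mul_self_sqrt hs0.le
    have h2 : 1 ≤ Real.sqrt (Real.sqrt n) := by rw [Real.one_le_sqrt]; exact hs1
    nlinarith
  have hmR2 : (2 : ℝ) ≤ m := by exact_mod_cast hm2
  have hsm0 : 0 < Real.sqrt m := Real.sqrt_pos.2 (by linarith)
  have hsm : Real.sqrt (Real.sqrt n) ≤ 2 * Real.sqrt m := by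
    have h1 : Real.sqrt n ≤ 4 * m := by
      rw [Real.sqrt_le_iff]
      refine ⟨by linarith, ?_⟩
      have h2 : (n : ℝ) ≤ (m + 1) * (m + 1) := by exact_mod_cast hmm'.le
      nlinarith
    have h3 : Real.sqrt (4 * m) = 2 * Real.sqrt m := by
      rw [Real.sqrt_mul (by norm_num), show (4 : ℝ) = 2 ^ 2 by norm_num,
        Real.sqrt_sq (by norm_num)]
    rw [← h3]
    exact Real.sqrt_le_sqrt h1
  have hmR : (m : ℝ) ≤ Real.sqrt n := by
    apply Real.le_sqrt_of_sq_le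
    rw [sq]
    exact_mod_cast hmm
  refine ⟨hm2, hmn, ht0, ?_, ?_, ?_⟩
  · rw [div_le_div_iff₀ hsm0 ht0]
    linarith
  · apply one_div_le_one_div_of_le ht0
    nlinarith
  · rw [div_le_div_iff₀ hn0 ht0, one_mul]
    calc (m : ℝ) * Real.sqrt (Real.sqrt n) ≤ Real.sqrt n * Real.sqrt n :=
          mul_le_mul hmR ht1 ht0.le hs0.le
      _ = n := hss

/-- The final computation. -/
lemma core_num {n m J : ℕ} (hn : 2 ≤ n) {T F B K C c0 X W E κ : ℝ} (hT : 0 < T) (hF0 : 0 ≤ F)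
    (hB0 : 0 ≤ B) (hK0 : 0 ≤ K) (hCK : K ≤ C) (hC1' : 1 ≤ C) (hc0 : 0 < c0)
    (hCc : 2 / c0 * (8 + 2 * B) ≤ C) (hinv : 1 / (n : ℝ) ≤ 1 / T) (hmn' : (m : ℝ) / n ≤ 1 / T)
    (hκ : κ = 1 / (n : ℝ) ^ 3) (hX : X ≤ W)
    (hwin : c0 / 2 * W ≤ 5 * κ * F / (1 / (n : ℝ) ^ 2) + E +
      (1 / (n : ℝ) + 1 / (n : ℝ) ^ 2 + 1 / n) * m * F)
    (hlad : E ≤ K ^ J * (2 * B / T * F)) : X ≤ C * C ^ J / T * F := by
  have hnR : (2 : ℝ) ≤ n := by exact_mod_cast hn
  have hn0 : (0 : ℝ) < n := by linarith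
  have hmain : c0 / 2 * X ≤ (8 + 2 * B * K ^ J) / T * F := by
    have h1 : c0 / 2 * X ≤ c0 / 2 * W := mul_le_mul_of_nonneg_left hX (by positivity)
    refine h1.trans (hwin.trans ?_)
    have h2 : 5 * κ * F / (1 / (n : ℝ) ^ 2) = 5 * (1 / n) * F := by
      rw [hκ]
      field_simp
    have h3 : (1 / (n : ℝ) + 1 / (n : ℝ) ^ 2 + 1 / n) * m * F ≤ 3 * (m / n) * F := by
      apply mul_le_mul_of_nonneg_right _ hF0
      have h4 : 1 / (n : ℝ) ^ 2 ≤ 1 / n := by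
        apply one_div_le_one_div_of_le hn0
        nlinarith
      have h5 : (0 : ℝ) ≤ m := Nat.cast_nonneg _
      calc (1 / (n : ℝ) + 1 / (n : ℝ) ^ 2 + 1 / n) * m ≤ (1 / (n : ℝ) + 1 / n + 1 / n) * m := by
            apply mul_le_mul_of_nonneg_right _ h5
            linarith
        _ = 3 * (m / n) := by ring
    have h6 : 3 * ((m : ℝ) / n) * F ≤ 3 * (1 / T) * F := by
      apply mul_le_mul_of_nonneg_right _ hF0
      linarith
    have h7 : 5 * (1 / (n : ℝ)) * F ≤ 5 * (1 / T) * F := by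
      apply mul_le_mul_of_nonneg_right _ hF0
      linarith
    rw [h2]
    calc 5 * (1 / (n : ℝ)) * F + E + (1 / (n : ℝ) + 1 / (n : ℝ) ^ 2 + 1 / n) * m * F
        ≤ 5 * (1 / T) * F + K ^ J * (2 * B / T * F) + 3 * (1 / T) * F :=
          add_le_add (add_le_add h7 hlad) (h3.trans h6)
      _ = (8 + 2 * B * K ^ J) / T * F := by ring
  have hX2 : X ≤ 2 / c0 * ((8 + 2 * B * K ^ J) / T * F) := by
    calc X = 2 / c0 * (c0 / 2 * X) := by field_simp
      _ ≤ _ := mul_le_mul_of_nonneg_left hmain (by positivity)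
  refine hX2.trans ?_
  rw [← mul_assoc]
  apply mul_le_mul_of_nonneg_right _ hF0
  rw [← mul_div_assoc]
  apply div_le_div_of_nonneg_right _ hT.le
  have hCJ1 : 1 ≤ C ^ J := one_le_pow₀ hC1'
  have hKJ : K ^ J ≤ C ^ J := pow_le_pow_left₀ hK0 hCK J
  calc 2 / c0 * (8 + 2 * B * K ^ J) ≤ 2 / c0 * ((8 + 2 * B) * C ^ J) := by
        apply mul_le_mul_of_nonneg_left _ (by positivity)
        have h1 : 2 * B * K ^ J ≤ 2 * B * C ^ J := mul_le_mul_of_nonneg_left hKJ (by positivity)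
        linarith
    _ = 2 / c0 * (8 + 2 * B) * C ^ J := by ring
    _ ≤ C * C ^ J := mul_le_mul_of_nonneg_right hCc (by positivity)

open Classical in
theorem core2 (hG : G.Connected) {d : ℕ} (hd1 : 1 ≤ d) (hd : ∀ v, G.degree v ≤ d)
    (hQT : QTStmt V) (hL0 : Stmts.Ladder0Stmt V) (hW : Stmts.WindowStmt V)
    (hH : Stmts.HeatStmt G d) (p0 c0 : ℝ) (hp0 : 0 < p0) (hc0 : 0 < c0) :
    ∃ C : ℝ, 1 ≤ C ∧ ∀ (p : ℝ) (n J r : ℕ), p0 ≤ p → p ≤ 1 →
      (∀ x, c0 ≤ phiB G n x p) → 4 ≤ n → 2 ^ J ≤ n →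
      (∀ x, 8 * n ^ 3 ≤ (ballF G x r).card) → C * r ^ 2 * (1 + Real.log n) ≤ 2 ^ J →
      ∀ F : Finset V,
        ∑ o ∈ F.filter (fun o => ballF G o (n ^ 2) ⊆ F),
          Ex p (edgesIn G F) (ww (1 / (n : ℝ) ^ 2) (1 / n) o) ≤
        C * C ^ J / Real.sqrt (Real.sqrt n) * F.card := by
  obtain ⟨C0, hC0, hQ⟩ := hQT
  obtain ⟨C1, hC1, H1⟩ := hL0
  obtain ⟨C2, hC2, H2⟩ := hH
  set K : ℝ := 2 * C0 / c0 with hK
  set B : ℝ := C1 * d / p0 with hB
  have hdr : (1 : ℝ) ≤ d := by exact_mod_cast hd1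
  have hK0 : 0 ≤ K := by rw [hK]; positivity
  have hB0 : 0 ≤ B := by
    rw [hB]
    apply div_nonneg _ hp0.le
    apply mul_nonneg <;> linarith
  set C : ℝ := max (max (max K 1) (3 * C2)) (2 / c0 * (8 + 2 * B)) with hC
  have hCK : K ≤ C := ((le_max_left _ _).trans (le_max_left _ _)).trans (le_max_left _ _)
  have hC1' : 1 ≤ C := ((le_max_right _ _).trans (le_max_left _ _)).trans (le_max_left _ _)
  have hCC2 : 3 * C2 ≤ C := (le_max_right _ _).trans (le_max_left _ _)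
  have hCc : 2 / c0 * (8 + 2 * B) ≤ C := le_max_right _ _
  refine ⟨C, hC1', ?_⟩
  intro p n J r hp hp1 hphi hn4 h2J hvol hJ F
  have hn : 2 ≤ n := by omega
  have hp' : 0 ≤ p := hp0.le.trans hp
  set Λ := edgesIn G F with hΛ
  set U := F.filter (fun z => ballF G z n ⊆ F) with hU
  obtain ⟨m, hmdef⟩ : ∃ m : ℕ, m = Nat.sqrt n := ⟨_, rfl⟩
  have hUF : U ⊆ F := Finset.filter_subset _ _
  obtain ⟨hm2, hmn, ht0, hinvm, hinv, hmn'⟩ := sqrt_facts hn4 hmdef
  have hnn : n + 2 ^ J ≤ n ^ 2 := by nlinarith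
  have hnR : (2 : ℝ) ≤ n := by exact_mod_cast hn
  have hn0 : (0 : ℝ) < n := by linarith
  have hΛF : ∀ e ∈ Λ, ∀ v ∈ e, v ∈ F := fun e he => (mem_edgesIn.1 he).2
  have hker := fun j => (walk G hd1 hd U j).1
  have hbig : ∀ z ∈ U, c0 ≤ Ex p Λ (big n z) := by
    intro z hz
    rw [hΛ, Ex_big_local hG p (Finset.mem_filter.1 hz).2]
    exact hphi z
  have hbig' : ∀ z ∈ U, c0 ≤ Ex p Λ (fun S => I1 (m ≤ csz S z)) := by
    intro z hz
    refine (hbig z hz).trans (Ex_mono hp' hp1 fun S _ => ?_)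
    unfold big
    split_ifs with h
    · rw [I1_true (hmn.trans h)]
    · exact I1_nonneg _
  have hF0 : (0 : ℝ) ≤ F.card := Nat.cast_nonneg _
  -- the ladder
  have hbase := H1 p hp' hp1 F U Λ d hd1 hUF hΛF (card_edgesIn_le_mul hd F) (kM G d U)
    (kM_nonneg G hd1 hd U)
    (by
      intro x y
      by_cases hxy : x ∈ U ∧ y ∈ U
      · exact (Finset.single_le_sum (f := fun y => kM G d U x y)
          (fun y _ => kM_nonneg G hd1 hd U x y) hxy.2).trans ((kM_ker G hd1 hd U).2.1 x hxy.1)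
      · unfold kM
        rw [if_neg hxy]
        norm_num)
    (by
      intro x y hxy h
      unfold kM at h
      split_ifs at h with h1 h2
      · exact mk_mem_edgesIn.2 ⟨h2, hUF h1.1, hUF h1.2⟩
      · exact absurd rfl h
      · exact absurd rfl h)
    m hm2
  have hM0 : 0 ≤ ∑ x ∈ U, ∑ y ∈ U, kM G d U x y * PD p Λ m x y :=
    Finset.sum_nonneg fun x _ => Finset.sum_nonneg fun y _ =>
      mul_nonneg (kM_nonneg G hd1 hd U x y) (PD_nonneg hp' hp1 Λ m x y)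
  have hbase2 : ∑ x ∈ U, ∑ y ∈ U, kM G d U x y * PD p Λ m x y ≤
      2 * B / Real.sqrt (Real.sqrt n) * F.card := by
    have h1 : p0 * ∑ x ∈ U, ∑ y ∈ U, kM G d U x y * PD p Λ m x y ≤
        C1 * d * F.card / Real.sqrt m :=
      (mul_le_mul_of_nonneg_right hp hM0).trans hbase
    have h2 : ∑ x ∈ U, ∑ y ∈ U, kM G d U x y * PD p Λ m x y ≤
        (C1 * d * F.card / Real.sqrt m) / p0 := by
      rw [le_div_iff₀ hp0]; linarith
    refine h2.trans ?_
    have h3 : (C1 * d * F.card / Real.sqrt m) / p0 = B * F.card * (1 / Real.sqrt m) := by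
      rw [hB]; field_simp
    rw [h3]
    calc B * F.card * (1 / Real.sqrt m) ≤ B * F.card * (2 / Real.sqrt (Real.sqrt n)) :=
          mul_le_mul_of_nonneg_left hinvm (by positivity)
      _ = _ := by ring
  have hlad : ∑ x ∈ U, ∑ y ∈ U, qq U (kM G d U) J x y * PD p Λ m x y ≤
      K ^ J * (2 * B / Real.sqrt (Real.sqrt n) * F.card) := by
    refine (qt_iter hC0 hQ hp' hp1 Λ U hker m hc0 hbig' J).trans ?_
    exact mul_le_mul_of_nonneg_left hbase2 (pow_nonneg hK0 J)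
  -- the heat kernel
  have hκ : ∀ x y, qq U (kM G d U) J x y ≤ 1 / (n : ℝ) ^ 3 :=
    qq_le_cube hC2 H2 hCC2 hn hvol hJ U
  -- the window
  have hn1 : 1 / (n : ℝ) ≤ 1 := by
    rw [div_le_one hn0]; linarith
  have hn2 : 1 / (n : ℝ) ^ 2 ≤ 1 := by
    rw [div_le_one (by positivity)]
    exact one_le_pow₀ (by linarith)
  have hwin := hW p hp' hp1 F U Λ hUF hΛF (qq U (kM G d U) J) (hker J) (1 / (n : ℝ) ^ 3) hκ
    (1 / n) (1 / (n : ℝ) ^ 2) (1 / n) (c0 / 2) (by positivity) hn1 (by positivity) hn2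
    (by positivity) hn1 (by positivity)
    (fun b hb => gh_ge_of_big hp' hp1 Λ (by omega) le_rfl b (hbig b hb)) m
  have hlow : ∑ o ∈ F.filter (fun o => ballF G o (n ^ 2) ⊆ F),
      Ex p Λ (ww (1 / (n : ℝ) ^ 2) (1 / n) o) ≤
      ∑ o ∈ U, (∑ b ∈ U, qq U (kM G d U) J o b) * Ex p Λ (ww (1 / (n : ℝ) ^ 2) (1 / n) o) := by
    have hww : ∀ o, 0 ≤ Ex p Λ (ww (1 / (n : ℝ) ^ 2) (1 / n) o) := by
      intro o
      apply Ex_nonneg hp' hp1
      intro S _
      unfold ww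
      have e1 : (0 : ℝ) ≤ 1 - 1 / (n : ℝ) ^ 2 := by linarith
      have e2 : (0 : ℝ) ≤ 1 - 1 / (n : ℝ) := by linarith
      have e3 : (0 : ℝ) ≤ 1 / (n : ℝ) := by positivity
      have e4 := pow_le_one₀ (n := csz S o) e2 (by linarith)
      exact mul_nonneg (pow_nonneg e1 _) (by linarith)
    have hsub : F.filter (fun o => ballF G o (n ^ 2) ⊆ F) ⊆ U := by
      intro o ho
      rw [Finset.mem_filter] at ho
      rw [hU, Finset.mem_filter]
      exact ⟨ho.1, (ballF_mono G o (by nlinarith)).trans ho.2⟩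
    calc ∑ o ∈ F.filter (fun o => ballF G o (n ^ 2) ⊆ F),
          Ex p Λ (ww (1 / (n : ℝ) ^ 2) (1 / n) o)
        = ∑ o ∈ F.filter (fun o => ballF G o (n ^ 2) ⊆ F), (∑ b ∈ U, qq U (kM G d U) J o b) *
          Ex p Λ (ww (1 / (n : ℝ) ^ 2) (1 / n) o) := by
          apply Finset.sum_congr rfl
          intro o ho
          rw [Finset.mem_filter] at ho
          rw [(walk G hd1 hd U J).2 o, one_mul]
          intro z hz
          rw [hU, Finset.mem_filter]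
          have h5 : ballF G z n ⊆ ballF G o (n ^ 2) := by
            intro w hw
            exact ballF_mono G o hnn (ballF_add G hw hz)
          exact ⟨ho.2 (ballF_mono G o (by omega) hz), h5.trans ho.2⟩
      _ ≤ _ := by
          apply Finset.sum_le_sum_of_subset_of_nonneg hsub
          intro o ho _
          exact mul_nonneg (Finset.sum_nonneg fun b _ => (hker J).1 o b) (hww o)
  exact core_num hn ht0 hF0 hB0 hK0 hCK hC1' hc0 hCc hinv hmn' rfl hlow hwin hlad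

end Vale.Agent.P151.TC
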