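import Vale.Agent.P151.TC.H510.Def
import Vale.Agent.P151.QP.Iter

/-!
# The ladder without loss of mass, from the quasi-triangle inequality
-/

set_option autoImplicit false
set_option linter.unusedSectionVars false

open Finset SimpleGraph

namespace Vale.Agent.P151.TC

open Vale.Agent.P151 Vale.Agent.P151.QP Vale.Agent.P151.R2.H279

/-- The quasi-triangle inequality, from the three-cluster inequality. -/
theorem qt_of_tc (h : TCStmt) (V : Type) [DecidableEq V] : QTStmt V := by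
  refine ⟨11, by norm_num, ?_⟩
  intro p h0 h1 Λ n x y z
  have h2 := h V p h0 h1 Λ n x y z
  have h3 : Ex p Λ (fun S => DD n x y S * I1 (n ≤ csz S z)) ≤ PD p Λ n x z + PD p Λ n z y := by
    unfold PD
    rw [← Ex_add]
    apply Ex_mono h0 h1
    intro S _
    by_cases hD : (¬ Cn S x y ∧ n ≤ csz S x ∧ n ≤ csz S y) ∧ n ≤ csz S z
    · obtain ⟨⟨hxy, hx, hy⟩, hz⟩ := hD
      have e1 : DD n x y S * I1 (n ≤ csz S z) ≤ 1 := by
        unfold DD
        exact mul_le_one₀ (I1_le_one _) (I1_nonneg _) (I1_le_one _)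
      by_cases hxz : Cn S x z
      · have hzy : ¬ Cn S z y := fun h => hxy (Cn.trans hxz h)
        have e2 : DD n z y S = 1 := I1_true ⟨hzy, hz, hy⟩
        have e3 : 0 ≤ DD n x z S := DD_nonneg n x z S
        rw [e2]; linarith
      · have e2 : DD n x z S = 1 := I1_true ⟨hxz, hx, hz⟩
        have e3 : 0 ≤ DD n z y S := DD_nonneg n z y S
        rw [e2]; linarith
    · have e1 : DD n x y S * I1 (n ≤ csz S z) = 0 := by
        unfold DD
        rw [← I1_and]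
        exact I1_false hD
      rw [e1]
      exact add_nonneg (DD_nonneg n x z S) (DD_nonneg n z y S)
  have h4 : Ex p Λ (fun S => I1 (n ≤ csz S z)) * PD p Λ n x y =
      PD p Λ n x y * Ex p Λ (fun S => I1 (n ≤ csz S z)) := mul_comm _ _
  rw [h4]
  linarith

variable {V : Type} [DecidableEq V]

/-- One step of the ladder, at the same mass. -/
theorem qt_step {C0 : ℝ} (hC0 : 1 ≤ C0)
    (hQ : ∀ (p : ℝ), 0 ≤ p → p ≤ 1 → ∀ (Λ : Finset (Sym2 V)) (n : ℕ) (x y z : V),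
      Ex p Λ (fun S => I1 (n ≤ csz S z)) * PD p Λ n x y ≤ C0 * (PD p Λ n x z + PD p Λ n z y))
    {p : ℝ} (h0 : 0 ≤ p) (h1 : p ≤ 1) (Λ : Finset (Sym2 V)) (U : Finset V) {A B : V → V → ℝ}
    (hA : Ker U A) (hB : Ker U B) (n : ℕ) {c : ℝ}
    (hc : ∀ z ∈ U, c ≤ Ex p Λ (fun S => I1 (n ≤ csz S z))) :
    c * ∑ x ∈ U, ∑ y ∈ U, kc U A B x y * PD p Λ n x y ≤
      C0 * (∑ x ∈ U, ∑ y ∈ U, A x y * PD p Λ n x y + ∑ x ∈ U, ∑ y ∈ U, B x y * PD p Λ n x y) := by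
  have hP : ∀ x y, 0 ≤ PD p Λ n x y := fun x y => PD_nonneg h0 h1 Λ n x y
  have hC0' : 0 ≤ C0 := by linarith
  have e1 : c * ∑ x ∈ U, ∑ y ∈ U, kc U A B x y * PD p Λ n x y =
      ∑ x ∈ U, ∑ y ∈ U, ∑ z ∈ U, A x z * B z y * (c * PD p Λ n x y) := by
    rw [Finset.mul_sum]
    refine Finset.sum_congr rfl fun x _ => ?_
    rw [Finset.mul_sum]
    refine Finset.sum_congr rfl fun y _ => ?_
    unfold kc
    rw [Finset.sum_mul, Finset.mul_sum]
    refine Finset.sum_congr rfl fun z _ => ?_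
    ring
  have e2 : ∑ x ∈ U, ∑ y ∈ U, ∑ z ∈ U, A x z * B z y * (c * PD p Λ n x y) ≤
      ∑ x ∈ U, ∑ y ∈ U, ∑ z ∈ U, A x z * B z y * (C0 * (PD p Λ n x z + PD p Λ n z y)) := by
    refine Finset.sum_le_sum fun x _ => Finset.sum_le_sum fun y _ =>
      Finset.sum_le_sum fun z hz => ?_
    apply mul_le_mul_of_nonneg_left _ (mul_nonneg (hA.1 x z) (hB.1 z y))
    exact (mul_le_mul_of_nonneg_right (hc z hz) (hP x y)).trans (hQ p h0 h1 Λ n x y z)
  have e3 : ∑ x ∈ U, ∑ y ∈ U, ∑ z ∈ U, A x z * B z y * (C0 * (PD p Λ n x z + PD p Λ n z y)) =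
      C0 * (∑ x ∈ U, ∑ z ∈ U, A x z * PD p Λ n x z * ∑ y ∈ U, B z y) +
      C0 * (∑ z ∈ U, ∑ y ∈ U, B z y * PD p Λ n z y * ∑ x ∈ U, A x z) := by
    have f1 : ∑ x ∈ U, ∑ y ∈ U, ∑ z ∈ U, A x z * B z y * (C0 * (PD p Λ n x z + PD p Λ n z y)) =
        (∑ x ∈ U, ∑ y ∈ U, ∑ z ∈ U, C0 * (A x z * PD p Λ n x z * B z y)) +
        ∑ x ∈ U, ∑ y ∈ U, ∑ z ∈ U, C0 * (B z y * PD p Λ n z y * A x z) := by
      simp_rw [← Finset.sum_add_distrib]
      refine Finset.sum_congr rfl fun x _ => Finset.sum_congr rfl fun y _ =>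
        Finset.sum_congr rfl fun z _ => ?_
      ring
    rw [f1]
    congr 1
    · rw [Finset.mul_sum]
      refine Finset.sum_congr rfl fun x _ => ?_
      rw [Finset.sum_comm, Finset.mul_sum]
      refine Finset.sum_congr rfl fun z _ => ?_
      rw [Finset.mul_sum, Finset.mul_sum]
    · rw [Finset.mul_sum]
      have f2 : ∑ x ∈ U, ∑ y ∈ U, ∑ z ∈ U, C0 * (B z y * PD p Λ n z y * A x z) =
          ∑ z ∈ U, ∑ y ∈ U, ∑ x ∈ U, C0 * (B z y * PD p Λ n z y * A x z) := by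
        rw [Finset.sum_comm]
        have f3 : ∀ y ∈ U, ∑ x ∈ U, ∑ z ∈ U, C0 * (B z y * PD p Λ n z y * A x z) =
            ∑ z ∈ U, ∑ x ∈ U, C0 * (B z y * PD p Λ n z y * A x z) :=
          fun y _ => Finset.sum_comm
        rw [Finset.sum_congr rfl f3, Finset.sum_comm]
      rw [f2]
      refine Finset.sum_congr rfl fun z _ => ?_
      rw [Finset.mul_sum]
      refine Finset.sum_congr rfl fun y _ => ?_
      rw [Finset.mul_sum, Finset.mul_sum]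
  have e4 : ∑ x ∈ U, ∑ z ∈ U, A x z * PD p Λ n x z * ∑ y ∈ U, B z y ≤
      ∑ x ∈ U, ∑ y ∈ U, A x y * PD p Λ n x y := by
    refine Finset.sum_le_sum fun x _ => Finset.sum_le_sum fun z hz => ?_
    exact mul_le_of_le_one_right (mul_nonneg (hA.1 x z) (hP x z)) (hB.2.1 z hz)
  have e5 : ∑ z ∈ U, ∑ y ∈ U, B z y * PD p Λ n z y * ∑ x ∈ U, A x z ≤
      ∑ x ∈ U, ∑ y ∈ U, B x y * PD p Λ n x y := by
    refine Finset.sum_le_sum fun z hz => Finset.sum_le_sum fun y _ => ?_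
    exact mul_le_of_le_one_right (mul_nonneg (hB.1 z y) (hP z y)) (hA.2.2 z hz)
  rw [e1]
  refine e2.trans ?_
  rw [e3, mul_add]
  exact add_le_add (mul_le_mul_of_nonneg_left e4 hC0') (mul_le_mul_of_nonneg_left e5 hC0')

/-- **The ladder.** -/
theorem qt_iter {C0 : ℝ} (hC0 : 1 ≤ C0)
    (hQ : ∀ (p : ℝ), 0 ≤ p → p ≤ 1 → ∀ (Λ : Finset (Sym2 V)) (n : ℕ) (x y z : V),
      Ex p Λ (fun S => I1 (n ≤ csz S z)) * PD p Λ n x y ≤ C0 * (PD p Λ n x z + PD p Λ n z y))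
    {p : ℝ} (h0 : 0 ≤ p) (h1 : p ≤ 1) (Λ : Finset (Sym2 V)) (U : Finset V) {M : V → V → ℝ}
    (hKer : ∀ j, Ker U (qq U M j)) (n : ℕ) {c : ℝ} (hc0 : 0 < c)
    (hc : ∀ z ∈ U, c ≤ Ex p Λ (fun S => I1 (n ≤ csz S z))) (J : ℕ) :
    ∑ x ∈ U, ∑ y ∈ U, qq U M J x y * PD p Λ n x y ≤
      (2 * C0 / c) ^ J * ∑ x ∈ U, ∑ y ∈ U, M x y * PD p Λ n x y := by
  induction J with
  | zero => simp [qq]
  | succ J ih =>
    have h2 := qt_step hC0 hQ h0 h1 Λ U (hKer J) (hKer J) n hc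
    have h3 : ∑ x ∈ U, ∑ y ∈ U, qq U M (J + 1) x y * PD p Λ n x y ≤
        2 * C0 / c * ∑ x ∈ U, ∑ y ∈ U, qq U M J x y * PD p Λ n x y := by
      rw [div_mul_eq_mul_div, le_div_iff₀ hc0]
      have h4 : ∑ x ∈ U, ∑ y ∈ U, qq U M (J + 1) x y * PD p Λ n x y =
          ∑ x ∈ U, ∑ y ∈ U, kc U (qq U M J) (qq U M J) x y * PD p Λ n x y := rfl
      rw [h4]
      linarith
    refine h3.trans ?_
    rw [pow_succ]
    have h5 : (0 : ℝ) ≤ 2 * C0 / c := by positivity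
    calc 2 * C0 / c * ∑ x ∈ U, ∑ y ∈ U, qq U M J x y * PD p Λ n x y
        ≤ 2 * C0 / c * ((2 * C0 / c) ^ J * ∑ x ∈ U, ∑ y ∈ U, M x y * PD p Λ n x y) :=
          mul_le_mul_of_nonneg_left ih h5
      _ = _ := by ring

end Vale.Agent.P151.TC
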