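import Vale.Agent.P151.TC.H510.Core2
import Vale.Agent.P151.TC.H510.Frame2
import Vale.Agent.P151.QP.Drop

/-!
# The seam, from the three-cluster inequality
-/

set_option autoImplicit false
set_option linter.unusedSectionVars false

open Finset SimpleGraph

namespace Vale.Agent.P151.TC

open Vale.Agent.P151 Vale.Agent.P151.QP Vale.Agent.P151.R2.H279

variable {V : Type} [DecidableEq V] {G : SimpleGraph V} [G.LocallyFinite]

/-- The drop estimate on finite sets, without decidability issues. -/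
def Core2Stmt (G : SimpleGraph V) [G.LocallyFinite] : Prop :=
  ∀ (p0 c0 : ℝ), 0 < p0 → 0 < c0 → ∃ C : ℝ, 1 ≤ C ∧ ∀ (p : ℝ) (n J r : ℕ), p0 ≤ p → p ≤ 1 →
    (∀ x, c0 ≤ phiB G n x p) → 4 ≤ n → 2 ^ J ≤ n →
    (∀ x, 8 * n ^ 3 ≤ (ballF G x r).card) → C * r ^ 2 * (1 + Real.log n) ≤ 2 ^ J →
    ∀ F P : Finset V, P ⊆ F → (∀ o ∈ P, ballF G o (n ^ 2) ⊆ F) →
      ∑ o ∈ P, Ex p (edgesIn G F) (ww (1 / (n : ℝ) ^ 2) (1 / n) o) ≤
        C * C ^ J / Real.sqrt (Real.sqrt n) * F.card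

theorem core2_stmt (hQT : QTStmt V) (hG : G.Connected) {R : Finset V}
    (hR : ∀ x : V, ∃ g : G ≃g G, g x ∈ R) (hAm : IsAmenable G) : Core2Stmt G := by
  classical
  obtain ⟨d, hd1, hd⟩ : ∃ d : ℕ, 1 ≤ d ∧ ∀ v, G.degree v ≤ d := by
    obtain ⟨b, hb1, hb⟩ := ball_bound hG (reps' hR) 1
    refine ⟨b, hb1, fun v => le_trans ?_ (hb v)⟩
    rw [← SimpleGraph.card_neighborFinset_eq_degree]
    apply Finset.card_le_card
    intro w hw
    rw [SimpleGraph.mem_neighborFinset] at hw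
    rw [mem_ballF_iff hG, SimpleGraph.dist_comm]
    exact (SimpleGraph.dist_eq_one_iff_adj.2 hw).le
  intro p0 c0 hp0 hc0
  obtain ⟨C, hC1, hC⟩ := core2 hG hd1 hd hQT
    (ladder0 varStmt Th.thLow) windowStmt (H820.heat hG hR hAm hd1 hd) p0 c0 hp0 hc0
  refine ⟨C, hC1, ?_⟩
  intro p n J r hp hp1 hphi hn4 h2J hvol hJ F P hPF hP
  have hn : 2 ≤ n := by omega
  have hn0 : (2 : ℝ) ≤ n := by exact_mod_cast hn
  have hn1 : 1 / (n : ℝ) ≤ 1 := by
    rw [div_le_one (by linarith)]; linarith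
  have hn2 : 1 / (n : ℝ) ^ 2 ≤ 1 := by
    rw [div_le_one (by positivity)]
    exact one_le_pow₀ (by linarith)
  refine le_trans ?_ (hC p n J r hp hp1 hphi hn4 h2J hvol hJ F)
  apply Finset.sum_le_sum_of_subset_of_nonneg
  · intro o ho
    rw [Finset.mem_filter]
    exact ⟨hPF ho, hP o ho⟩
  · intro o _ _
    exact Ex_nonneg (hp0.le.trans hp) hp1 fun S _ =>
      ww_nonneg (by positivity) hn2 (by positivity) hn1 o S

open Classical in
/-- From averages over Foelner sets to every vertex. -/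
theorem drop2_of_core [Infinite V] (hG : G.Connected) {R : Finset V}
    (hR : ∀ x : V, ∃ g : G ≃g G, g x ∈ R) (hAm : IsAmenable G) (hcore : Core2Stmt G) :
    Drop2Stmt G := by
  intro p0 c0 hp0 hc0
  obtain ⟨C, hC1, hC⟩ := hcore p0 c0 hp0 hc0
  obtain ⟨c, hc, D, hcD⟩ := orbit_count hG hR
  have hC0 : 0 ≤ C := by linarith
  set C' : ℝ := max 2 (max C (8 * C / c)) with hC'
  have h2C' : 2 ≤ C' := le_max_left _ _
  have hCC' : C ≤ C' := (le_max_left _ _).trans (le_max_right _ _)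
  have h8C : 8 * C / c ≤ C' := (le_max_right _ _).trans (le_max_right _ _)
  refine ⟨C', hC1.trans hCC', ?_⟩
  intro p n J r hp hp1 hphi hn hr hJ x
  have h0 : 0 ≤ p := hp0.le.trans hp
  have hn2 : n ≤ n ^ 2 := by nlinarith
  have hnR : (2 : ℝ) ≤ n := by exact_mod_cast hn
  have hs0 : 0 < Real.sqrt n := Real.sqrt_pos.2 (by linarith)
  have ht0 : 0 < Real.sqrt (Real.sqrt n) := Real.sqrt_pos.2 hs0
  have hss : Real.sqrt n * Real.sqrt n = n := Real.mul_self_sqrt (by linarith)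
  have htt : Real.sqrt (Real.sqrt n) * Real.sqrt (Real.sqrt n) = Real.sqrt n :=
    Real.mul_self_sqrt hs0.le
  have hs1 : 1 ≤ Real.sqrt n := by rw [Real.one_le_sqrt]; linarith
  have ht1 : 1 ≤ Real.sqrt (Real.sqrt n) := by rw [Real.one_le_sqrt]; exact hs1
  set t := phiB G n x p - phiB G (n ^ 2) x p with ht
  have ht1' : t ≤ 1 := by
    have e1 := phiB_le_one (G := G) h0 hp1 n x
    have e2 := phiB_nonneg (G := G) h0 hp1 (n ^ 2) x
    rw [ht]; linarith
  have hCJ : 1 ≤ C' ^ J := one_le_pow₀ (by linarith)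
  by_cases hn4 : 4 ≤ n
  swap
  · -- small `n`
    refine ht1'.trans ?_
    rw [le_div_iff₀ ht0, one_mul]
    have e1 : (n : ℝ) ≤ 3 := by
      have : n ≤ 3 := by omega
      exact_mod_cast this
    have e2 : Real.sqrt n ≤ 2 := by nlinarith
    have e3 : Real.sqrt (Real.sqrt n) ≤ 2 := by nlinarith
    nlinarith
  by_cases h2J : 2 ^ J ≤ n
  swap
  · -- large `J`
    refine ht1'.trans ?_
    rw [le_div_iff₀ ht0, one_mul]
    have e1 : (n : ℝ) ≤ 2 ^ J := by
      have : n ≤ 2 ^ J := by omega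
      exact_mod_cast this
    have e2 : (2 : ℝ) ^ J ≤ C' ^ J := pow_le_pow_left₀ (by norm_num) h2C' J
    have e3 : Real.sqrt n ≤ n := by nlinarith
    have e4 : Real.sqrt (Real.sqrt n) ≤ Real.sqrt n := by nlinarith
    nlinarith
  have hlog : 0 ≤ Real.log n := Real.log_nonneg (by linarith)
  have hJ' : C * r ^ 2 * (1 + Real.log n) ≤ 2 ^ J := by
    refine le_trans ?_ hJ
    apply mul_le_mul_of_nonneg_right _ (by linarith)
    exact mul_le_mul_of_nonneg_right hCC' (by positivity)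
  have hmain := hC p n J r hp hp1 hphi hn4 h2J hr hJ'
  obtain ⟨F, hFne, hF⟩ := foelner_deep hG hR hAm (D + n ^ 2) (δ := 1 / 2) (by norm_num)
  have hF0 : (0 : ℝ) < F.card := by exact_mod_cast hFne.card_pos
  set P := F.filter fun v => (∃ g : G ≃g G, g x = v) ∧ ballF G v (n ^ 2) ⊆ F with hP
  have hcP : c * F.card ≤ P.card := hcD x (n ^ 2) F hF
  have ht0' : 0 ≤ t := by
    have := phiB_anti hG h0 hp1 hn2 x
    rw [ht]; linarith
  have hsum := hmain F P (Finset.filter_subset _ _) (fun o ho => by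
    rw [hP, Finset.mem_filter] at ho
    exact ho.2.2)
  set E : ℝ := C ^ J / Real.sqrt (Real.sqrt n) with hE
  have hE0 : 0 ≤ E := by rw [hE]; positivity
  have hCE : C * C ^ J / Real.sqrt (Real.sqrt n) = C * E := by rw [hE]; ring
  rw [hCE] at hsum
  have hlow : c * F.card * t ≤ 8 * ∑ o ∈ P, Ex p (edgesIn G F) (ww (1 / (n : ℝ) ^ 2) (1 / n) o) := by
    calc c * F.card * t ≤ P.card * t := mul_le_mul_of_nonneg_right hcP ht0'
      _ = ∑ v ∈ P, t := by rw [Finset.sum_const, nsmul_eq_mul]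
      _ = ∑ v ∈ P, Ex p (edgesIn G F) (fun S => big n v S - big (n ^ 2) v S) := by
          apply Finset.sum_congr rfl
          intro v hv
          rw [hP, Finset.mem_filter] at hv
          obtain ⟨_, ⟨g, rfl⟩, hb⟩ := hv
          rw [Ex_sub, Ex_big_local hG p ((ballF_mono G _ hn2).trans hb), Ex_big_local hG p hb,
            phiB_aut hG g h0 hp1, phiB_aut hG g h0 hp1, ht]
      _ ≤ ∑ v ∈ P, 8 * Ex p (edgesIn G F) (ww (1 / (n : ℝ) ^ 2) (1 / n) v) := by
          apply Finset.sum_le_sum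
          intro v _
          rw [← Ex_const_mul]
          exact Ex_mono h0 hp1 fun S _ => big_sub_le_ww hn v S
      _ = _ := by rw [Finset.mul_sum]
  have h9 : c * F.card * t ≤ 8 * (C * E * F.card) := hlow.trans (by linarith)
  have h10 : c * t ≤ 8 * C * E := by
    have h11 : F.card * (c * t) ≤ F.card * (8 * C * E) := by linarith
    exact le_of_mul_le_mul_left h11 hF0
  have h12 : t ≤ 8 * C / c * E := by
    rw [div_mul_eq_mul_div, le_div_iff₀ hc]
    linarith
  refine h12.trans ?_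
  have h13 : E ≤ C' ^ J / Real.sqrt (Real.sqrt n) := by
    rw [hE]
    apply div_le_div_of_nonneg_right _ ht0.le
    exact pow_le_pow_left₀ hC0 hCC' J
  have h14 : C' * C' ^ J / Real.sqrt (Real.sqrt n) = C' * (C' ^ J / Real.sqrt (Real.sqrt n)) := by
    ring
  rw [h14]
  exact mul_le_mul h8C h13 hE0 (hC0.trans hCC')

/-- **(D2)** -/
theorem drop2 [Infinite V] (hQT : QTStmt V) (hG : G.Connected) {R : Finset V}
    (hR : ∀ x : V, ∃ g : G ≃g G, g x ∈ R) (hAm : IsAmenable G) : Drop2Stmt G :=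
  drop2_of_core hG hR hAm (core2_stmt hQT hG hR hAm)

/-- **The seam, from the quasi-triangle inequality.** -/
theorem seam_of_qt (h : ∀ (V : Type) [DecidableEq V], QTStmt V) : FULL.Seam :=
  seam_of_drop2 fun V _ _ _ _ hG _ hR hAm => drop2 (h V) hG hR hAm

/-- **The seam, from the three-cluster inequality.** -/
theorem seam_of_tc (h : TCStmt) : FULL.Seam := seam_of_qt fun V _ => qt_of_tc h V

end Vale.Agent.P151.TC
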